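import Vale.Agent.P092.QT.H448.Gal
import Vale.Agent.P092.QT.H715.Two
import Vale.Agent.P092.QT.Q.Defs

/-!
P092 (helper448), project Q: `GalStmt`.
-/

set_option linter.all false

open scoped InnerProductSpace Topology ENNReal ComplexConjugate Pointwise
open Filter ContinuousLinearMap MeasureTheory Set
open Vale.Agent.P092.H160 Vale.Agent.P092.QT.H156.Sm Vale.Agent.P092.QT.H650
open Vale.Agent.P092.QT.H715.Q (Dbl fl F1 TwS)

namespace Vale.Agent.P092.QT.H448.Gal

section inv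

variable {E : Type} [Group E] [TopologicalSpace E] [IsTopologicalGroup E]
  [LocallyCompactSpace E] [SecondCountableTopology E] [T2Space E] [MeasurableSpace E]
  [BorelSpace E]

open Measure in
/-- (helper515) A Haar measure which is right invariant is invariant under inversion. -/
theorem invInv_of_right (μ : Measure E) [μ.IsHaarMeasure] [IsMulRightInvariant μ] :
    IsInvInvariant μ := by
  constructor
  obtain ⟨c, hcc⟩ : ∃ c : ℝ≥0∞, c = haarScalarFactor μ.inv μ := ⟨_, rfl⟩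
  have hfin : IsFiniteMeasureOnCompacts μ.inv := inferInstance
  have hc : μ.inv = c • μ := by
    rw [hcc]; exact isMulLeftInvariant_eq_smul μ.inv μ
  have this : map Inv.inv (map Inv.inv μ) = c ^ 2 • μ := by
    rw [← inv_def μ, hc, Measure.map_smul, ← inv_def μ, hc, smul_smul, pow_two]
  have μeq : μ = c ^ 2 • μ := by
    rw [map_map continuous_inv.measurable continuous_inv.measurable] at this
    simpa only [inv_involutive, Function.Involutive.comp_self, Measure.map_id] using this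
  obtain ⟨K⟩ : Nonempty (TopologicalSpace.PositiveCompacts E) := inferInstance
  have h1 : c ^ 2 * μ K = 1 ^ 2 * μ K := by
    conv_rhs => rw [μeq]
    simp
  have h2 : c ^ 2 = 1 ^ 2 :=
    (ENNReal.mul_left_inj (measure_pos_of_nonempty_interior _ K.interior_nonempty).ne'
          K.isCompact.measure_lt_top.ne).1 h1
  have h3 : c = 1 := (ENNReal.pow_right_strictMono two_ne_zero).injective h2
  rw [hc, h3, one_smul]

end inv

section stmt

variable {Γ X Y G H K : Type} [Group Γ] [Group X] [Group Y] [Group G] [Group H]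
  [Countable X] [Countable Y] [Countable Γ]
  [TopologicalSpace G] [TopologicalSpace H] [IsTopologicalGroup G] [IsTopologicalGroup H]
  [MeasurableSpace G] [BorelSpace G] [SecondCountableTopology G] [LocallyCompactSpace G]
  [T2Space G]
  [MeasurableSpace H] [BorelSpace H] [SecondCountableTopology H] [LocallyCompactSpace H]
  [T2Space H]
  [NormedAddCommGroup K] [InnerProductSpace ℂ K] [CompleteSpace K]
  {V W : Γ →* (K →L[ℂ] K)} {f : X →* Γ} {ρ : X →* (K →L[ℂ] K)} {f' : Y →* Γ}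
  {ρ' : Y →* (K →L[ℂ] K)} {ω ω' : K}
  {p : Γ →* G} {κ : Γ →* H} {μ : Measure G} {ν : Measure H}
  [μ.IsHaarMeasure] [μ.IsMulRightInvariant] [ν.IsHaarMeasure] [ν.IsMulRightInvariant]

/-- The two sided fields satisfy `Two`. -/
theorem exists_two (D : Dbl V W f ρ f' ρ' ω ω') (hp : DenseRange p) (hκ : DenseRange κ)
    (h1 : F1 (p.comp f) κ ρ V ω μ) (h2 : F1 (κ.comp f') p ρ' W ω' ν) :
    ∃ c : ℝ≥0∞, c ≠ ⊤ ∧ c ≠ 0 ∧
      Two (p.comp f) κ ρ V ω μ ν c {b | TwS V f ρ ω ω' p κ μ ν b} := by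
  haveI : ν.IsInvInvariant := invInv_of_right ν
  obtain ⟨c, hc, hk⟩ := H715.Q.exists_const D hκ hp h2 (μ := μ) (ν := ν)
  have hn : ∀ b, TwS V f ρ ω ω' p κ μ ν b →
      nsq ω' ν (fl κ V b) = ENNReal.ofReal c * nsq ω μ b := by
    intro b hb
    have h3 := hk b b hb hb
    rw [ip_self hb.smo.l2, ip_self (hb.smo' D hκ).l2, ← Complex.ofReal_mul,
      Complex.ofReal_inj] at h3
    have t1 := (nsq_lt_top (μ := μ) hb.smo.l2).ne
    have t2 := (nsq_lt_top (μ := ν) (hb.smo' D hκ).l2).ne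
    rw [← ENNReal.ofReal_toReal t2, h3, ENNReal.ofReal_mul hc.le, ENNReal.ofReal_toReal t1]
  refine ⟨ENNReal.ofReal c, ENNReal.ofReal_ne_top, ?_, ?_⟩
  · rw [Ne, ENNReal.ofReal_eq_zero, not_le]
    exact hc
  · refine ⟨fun b hb => hb.smo, fun b hb => TwS.adj D hκ hb, fun b hb z => TwS.rt D hκ hp hb z,
      fun b hb h => TwS.al D hκ hb h, fun a ha b hb => TwS.mul D hκ ha hb,
      fun b hb ζ => h1.lint hb.smo ζ, fun b hb x ζ => ?_, fun a ha b hb x X Y => ?_⟩
    · rw [H715.Q.lint_orb D hκ hp h2 hb x ζ, hn b hb]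
    · rw [(H715.Q.orb_pt D hκ hp h2 ha hb x X Y).2, hk a b ha hb, ENNReal.toReal_ofReal hc.le]

/-- Separation, from the properties of the factor. -/
theorem sep_fac (hG : PA.FacS G) (D : Dbl V W f ρ f' ρ' ω ω') (hp : DenseRange p)
    (hκ : DenseRange κ)
    (hne : ∃ b, TwS V f ρ ω ω' p κ μ ν b ∧ b ≠ 0) (z : G)
    (hz : ∀ S, TwS V f ρ ω ω' p κ μ ν S → ∀ t, S (t * z) = S t) : z = 1 := by
  let N : Subgroup G :=
    { carrier := {z | ∀ S, TwS V f ρ ω ω' p κ μ ν S → ∀ t, S (t * z) = S t}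
      one_mem' := fun S hS t => by rw [mul_one]
      mul_mem' := fun {a b} ha hb S hS t => by rw [← mul_assoc, hb S hS, ha S hS]
      inv_mem' := fun {a} ha S hS t => by
        have h3 := ha S hS (t * a⁻¹)
        rw [inv_mul_cancel_right] at h3
        exact h3.symm }
  have hN : N.Normal := by
    refine ⟨fun n hn g S hS t => ?_⟩
    have h3 : S (t * g * n * g⁻¹) = S (t * g * g⁻¹) := hn _ (TwS.rt D hκ hp hS g⁻¹) (t * g)
    rw [mul_inv_cancel_right] at h3
    rw [← h3]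
    congr 1
    group
  by_contra hz1
  have hT := hG.normal_eq_top N hN (g := z) hz hz1
  obtain ⟨b, hb, hb0⟩ := hne
  apply hb0
  have hconst : ∀ x, b x = b 1 := by
    intro x
    have h3 : x ∈ N := by rw [hT]; trivial
    have h4 := h3 b hb 1
    rwa [one_mul] at h4
  refine H715.Q.field_eq_zero D.fr.reg hb.smo.toFd fun x => ?_
  rw [hconst]
  by_contra hne
  have h5 := nsq_lt_top (μ := μ) hb.smo.l2
  unfold nsq at h5
  simp only [hconst] at h5
  rw [lintegral_const, hG.measure_univ μ, ENNReal.mul_top] at h5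
  · exact lt_irrefl _ h5
  · exact pow_ne_zero 2 (enorm_ne_zero.2 hne)

end stmt

/-- **Q-GAL.** -/
theorem galStmt : Q.GalStmt := by
  intro Γ X Y K G H _ _ _ _ _ _ _ _ _ _ _ _ _ _ _ _ _ _ _ _ _ _ _ _ _ V W f ρ f' ρ' ω ω' p κ μ
    _ _ ν _ _ D hp hκ hG hH h1 h2 hne ξ hξ
  obtain ⟨c, hc, hc0, h3⟩ := exists_two D hp hκ h1 h2
  rw [Lp.eq_zero_iff_ae_eq_zero]
  obtain ⟨b, hb, hb0⟩ := hne
  exact gal D.fr hκ h3 hc hc0 ⟨b, hb, hb0⟩
    (fun z hz => sep_fac hG D hp hκ ⟨b, hb, hb0⟩ z hz)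
    ⟨Lp.memLp ξ, fun a ha ζ => hξ a ha ζ⟩

end Vale.Agent.P092.QT.H448.Gal
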