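import Vale.Agent.P092.QT.H650.Alg2S
import Vale.Agent.P092.QT.H156.Tr
import Vale.Agent.P092.H734.SW

/-!
P092 (helper448), project Q, block Q-GAL: the vectors `x ↦ b x ζ` of the fields of the two-sided
algebra are total in `L²(G; K)`.
-/

set_option linter.all false

open scoped InnerProductSpace Topology ENNReal ComplexConjugate Pointwise
open Filter ContinuousLinearMap MeasureTheory Set
open Vale.Agent.P092.H160 Vale.Agent.P092.QT.H156.Sm Vale.Agent.P092.QT.H650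

namespace Vale.Agent.P092.QT.H448.Gal

/-! ### Coefficients of the right translations vanish at infinity -/

section coef

variable {G K : Type} [Group G] [TopologicalSpace G] [IsTopologicalGroup G] [LocallyCompactSpace G]
  [SecondCountableTopology G] [T2Space G] [MeasurableSpace G] [BorelSpace G]
  [NormedAddCommGroup K] [InnerProductSpace ℂ K] [CompleteSpace K]
  {μ : Measure G} [μ.IsHaarMeasure] [μ.IsMulRightInvariant]

theorem memLp_rt {g : G → K} (hg : MemLp g 2 μ) (s : G) : MemLp (fun x => g (x * s)) 2 μ :=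
  hg.comp_measurePreserving (measurePreserving_mul_right μ s)

theorem norm_rt {g : G → K} (hg : MemLp g 2 μ) (s : G) :
    ‖(memLp_rt hg s).toLp _‖ = ‖hg.toLp g‖ := by
  have h1 := norm_sq_toLp (memLp_rt hg s)
  have h2 := norm_sq_toLp hg
  have h3 : ∫ x, ‖g (x * s)‖ ^ 2 ∂μ = ∫ x, ‖g x‖ ^ 2 ∂μ :=
    integral_mul_right_eq_self (fun x => ‖g x‖ ^ 2) s
  rw [h3, ← h2] at h1
  exact (pow_left_inj₀ (norm_nonneg _) (norm_nonneg _) two_ne_zero).mp h1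

theorem approx {f : G → K} (hf : MemLp f 2 μ) {ε : ℝ} (hε : 0 < ε) :
    ∃ f' : G → K, HasCompactSupport f' ∧ ∃ hf' : MemLp f' 2 μ,
      ‖hf.toLp f - hf'.toLp f'‖ ≤ ε := by
  obtain ⟨f', h1, h2, h3, h4⟩ := hf.exists_hasCompactSupport_eLpNorm_sub_le
    (by norm_num) (ε := ENNReal.ofReal ε) (by
      simp only [ne_eq, ENNReal.ofReal_eq_zero, not_le]; exact hε)
  refine ⟨f', h1, h4, ?_⟩
  rw [← MemLp.toLp_sub, Lp.norm_toLp]
  exact ENNReal.toReal_le_of_le_ofReal hε.le h2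

theorem tendsto_coef {f g : G → K} (hf : MemLp f 2 μ) (hg : MemLp g 2 μ) :
    Tendsto (fun s => ∫ x, ⟪f x, g (x * s)⟫_ℂ ∂μ) (cocompact G) (𝓝 0) := by
  rw [Metric.tendsto_nhds]
  intro ε hε
  obtain ⟨f', hf1, hf2, hf3⟩ := approx hf (ε := ε / (3 * (‖hg.toLp g‖ + 1))) (by positivity)
  obtain ⟨g', hg1, hg2, hg3⟩ := approx hg (ε := ε / (3 * (‖hf2.toLp f'‖ + 1))) (by positivity)
  have hK : IsCompact ((tsupport f')⁻¹ * tsupport g') := IsCompact.mul (IsCompact.inv hf1) hg1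
  refine mem_cocompact.mpr ⟨_, hK, fun s hs => ?_⟩
  change dist (∫ x, ⟪f x, g (x * s)⟫_ℂ ∂μ) 0 < ε
  have h0 : ∫ x, ⟪f' x, g' (x * s)⟫_ℂ ∂μ = 0 := by
    rw [← integral_zero G ℂ (μ := μ)]
    refine integral_congr_ae (Eventually.of_forall fun x => ?_)
    change ⟪f' x, g' (x * s)⟫_ℂ = 0
    by_contra hne
    refine hs ?_
    have h1 : f' x ≠ 0 := fun h => hne (by rw [h, inner_zero_left])
    have h2 : g' (x * s) ≠ 0 := fun h => hne (by rw [h, inner_zero_right])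
    have e : s = x⁻¹ * (x * s) := by group
    rw [e]
    exact Set.mul_mem_mul (Set.inv_mem_inv.mpr (subset_tsupport _ h1)) (subset_tsupport _ h2)
  have e1 : ∫ x, ⟪f x, g (x * s)⟫_ℂ ∂μ = ⟪hf.toLp f, (memLp_rt hg s).toLp _⟫_ℂ :=
    integral_inner_toLp hf (memLp_rt hg s)
  have e2 : (0 : ℂ) = ⟪hf2.toLp f', (memLp_rt hg2 s).toLp _⟫_ℂ := by
    rw [← h0]; exact integral_inner_toLp hf2 (memLp_rt hg2 s)
  have e3 : ‖(memLp_rt hg s).toLp (fun x => g (x * s)) -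
      (memLp_rt hg2 s).toLp (fun x => g' (x * s))‖ = ‖hg.toLp g - hg2.toLp g'‖ := by
    rw [← MemLp.toLp_sub, ← MemLp.toLp_sub]
    exact norm_rt (hg.sub hg2) s
  rw [dist_zero_right, e1]
  have e4 : ⟪hf.toLp f, (memLp_rt hg s).toLp _⟫_ℂ =
      ⟪hf.toLp f - hf2.toLp f', (memLp_rt hg s).toLp _⟫_ℂ +
      (⟪hf2.toLp f', (memLp_rt hg s).toLp (fun x => g (x * s)) -
        (memLp_rt hg2 s).toLp (fun x => g' (x * s))⟫_ℂ + 0) := by
    rw [e2, ← inner_add_right, sub_add_cancel, ← inner_add_left, sub_add_cancel]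
  rw [e4, add_zero]
  have k1 : ‖⟪hf.toLp f - hf2.toLp f', (memLp_rt hg s).toLp _⟫_ℂ‖ ≤ ε / 3 := by
    refine (norm_inner_le_norm _ _).trans ?_
    rw [norm_rt hg]
    calc ‖hf.toLp f - hf2.toLp f'‖ * ‖hg.toLp g‖
        ≤ ε / (3 * (‖hg.toLp g‖ + 1)) * (‖hg.toLp g‖ + 1) := by gcongr; linarith
      _ = ε / 3 := by field_simp
  have k2 : ‖⟪hf2.toLp f', (memLp_rt hg s).toLp (fun x => g (x * s)) -
        (memLp_rt hg2 s).toLp (fun x => g' (x * s))⟫_ℂ‖ ≤ ε / 3 := by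
    refine (norm_inner_le_norm _ _).trans ?_
    rw [e3]
    calc ‖hf2.toLp f'‖ * ‖hg.toLp g - hg2.toLp g'‖
        ≤ (‖hf2.toLp f'‖ + 1) * (ε / (3 * (‖hf2.toLp f'‖ + 1))) := by gcongr; linarith
      _ = ε / 3 := by field_simp
  refine (norm_add_le _ _).trans_lt ?_
  linarith

end coef

/-! ### The two-sided algebra -/

section two

variable {Γ Λ G H K : Type} [Group Γ] [Countable Γ] [Group Λ]
  [Group G] [TopologicalSpace G] [IsTopologicalGroup G] [LocallyCompactSpace G]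
  [SecondCountableTopology G] [T2Space G] [MeasurableSpace G] [BorelSpace G]
  [Group H] [TopologicalSpace H] [IsTopologicalGroup H]
  [SecondCountableTopology H] [MeasurableSpace H] [BorelSpace H]
  [NormedAddCommGroup K] [InnerProductSpace ℂ K] [CompleteSpace K]

/-- A class of smooth fields with the two orthogonality relations. -/
structure Two (ι : Γ →* G) (κ : Λ →* H) (ρ : Γ →* (K →L[ℂ] K)) (V : Λ →* (K →L[ℂ] K)) (ω : K)
    (μ : Measure G) (ν : Measure H) (c : ℝ≥0∞) (𝔪 : Set (G → K →L[ℂ] K)) : Prop where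
  smo : ∀ b ∈ 𝔪, Smo ι κ ρ V ω μ b
  adj : ∀ b ∈ 𝔪, (fun x => adjoint (b x)) ∈ 𝔪
  rt : ∀ b ∈ 𝔪, ∀ z, (fun x => b (x * z)) ∈ 𝔪
  al : ∀ b ∈ 𝔪, ∀ h, H650.al κ V h b ∈ 𝔪
  mul : ∀ a ∈ 𝔪, ∀ b ∈ 𝔪, (fun x => a x * b x) ∈ 𝔪
  t4 : ∀ b ∈ 𝔪, ∀ ζ, ∫⁻ x, ‖b x ζ‖ₑ ^ 2 ∂μ = nsq ω μ b * ‖ζ‖ₑ ^ 2
  ia2 : ∀ b ∈ 𝔪, ∀ x ζ, ∫⁻ h, ‖H650.al κ V h b x ζ‖ₑ ^ 2 ∂ν = c * nsq ω μ b * ‖ζ‖ₑ ^ 2
  ia : ∀ a ∈ 𝔪, ∀ b ∈ 𝔪, ∀ x X Y,
    ∫ h, ⟪H650.al κ V h a x X, H650.al κ V h b x Y⟫_ℂ ∂ν = c.toReal * ip ω μ a b * ⟪X, Y⟫_ℂ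

/-- The square integrable fields of vectors orthogonal to all `x ↦ b x ζ`. -/
def Ort (μ : Measure G) (𝔪 : Set (G → K →L[ℂ] K)) (η : G → K) : Prop :=
  MemLp η 2 μ ∧ ∀ b ∈ 𝔪, ∀ ζ, ∫ x, ⟪b x ζ, η x⟫_ℂ ∂μ = 0

/-- The coefficient functions. -/
noncomputable def ph (ω : K) (μ : Measure G) (w S : G → K →L[ℂ] K) (s : G) : ℂ :=
  ip ω μ w (fun x => S (x * s))

variable {ρ : Γ →* (K →L[ℂ] K)} {V : Λ →* (K →L[ℂ] K)} {ω : K} {ι : Γ →* G} {κ : Λ →* H}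
  {μ : Measure G} [μ.IsHaarMeasure] [μ.IsMulRightInvariant] {ν : Measure H} [SFinite ν]
  {c : ℝ≥0∞} {𝔪 : Set (G → K →L[ℂ] K)}

theorem lcs {Y : Type} [MeasurableSpace Y] {m : Measure Y} {f g : Y → ℝ≥0∞} (hf : AEMeasurable f m)
    (hg : AEMeasurable g m) :
    ∫⁻ y, f y * g y ∂m ≤ (∫⁻ y, f y ^ 2 ∂m) ^ (1 / 2 : ℝ) * (∫⁻ y, g y ^ 2 ∂m) ^ (1 / 2 : ℝ) := by
  have h1 := ENNReal.lintegral_mul_le_Lp_mul_Lq m (p := 2) (q := 2)
    Real.HolderConjugate.two_two hf hg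
  simpa using h1

theorem sqrt_sq (a : ℝ≥0∞) : (a ^ 2) ^ (1 / 2 : ℝ) = a := by
  rw [← ENNReal.rpow_two, ← ENNReal.rpow_mul]
  norm_num

theorem sqrt_sq' (a : ℝ≥0∞) : (a ^ (1 / 2 : ℝ)) ^ 2 = a := by
  rw [← ENNReal.rpow_two, ← ENNReal.rpow_mul]
  norm_num

omit [Countable Γ] [LocallyCompactSpace G] [SecondCountableTopology G] [T2Space G]
  [MeasurableSpace G] [BorelSpace G] [SecondCountableTopology H] [MeasurableSpace H]
  [BorelSpace H] in
theorem al_cont_uc (hF : Frm ρ V ω) (hd : DenseRange κ) {b : G → K →L[ℂ] K}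
    (hf : Fd ι ρ b) (hb : ACont κ V b) : Continuous fun p : G × H => al κ V p.2 b p.1 := by
  have h1 := continuous_al_uncurry hF hd hf hb
  have h2 : Continuous fun p : G × H => (p.2, p.1) := continuous_swap
  have h3 := h1.comp h2
  exact h3

/-- The total of the squares of the norms of `v (α_h S)`. -/
theorem lint_nsq (hF : Frm ρ V ω) (hd : DenseRange κ) (h2 : Two ι κ ρ V ω μ ν c 𝔪)
    {v S : G → K →L[ℂ] K} (hv : v ∈ 𝔪) (hS : S ∈ 𝔪) :
    ∫⁻ h, nsq ω μ (fun x => v x * al κ V h S x) ∂ν =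
      c * nsq ω μ (fun x => adjoint (S x)) * nsq ω μ (fun x => adjoint (v x)) := by
  have h1 : ∀ h, nsq ω μ (fun x => v x * al κ V h S x) =
      ∫⁻ x, ‖al κ V h (fun x => adjoint (S x)) x (adjoint (v x) ω)‖ₑ ^ 2 ∂μ := by
    intro h
    have hvh := h2.smo _ (h2.mul v hv _ (h2.al S hS h))
    have h3 := nsq_adj hF.reg hvh.continuous hvh.equiv (μ := μ)
    rw [← h3]
    refine lintegral_congr fun x => ?_
    rw [al_adj hF hd (h2.smo S hS).acont]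
    congr 2
    change star (v x * al κ V h S x) ω = _
    rw [star_mul]
    rfl
  rw [lintegral_congr h1, lintegral_lintegral_swap]
  · have h4 : ∀ x, ∫⁻ h, ‖al κ V h (fun x => adjoint (S x)) x (adjoint (v x) ω)‖ₑ ^ 2 ∂ν =
        c * nsq ω μ (fun x => adjoint (S x)) * ‖adjoint (v x) ω‖ₑ ^ 2 := fun x =>
      h2.ia2 _ (h2.adj S hS) x _
    rw [lintegral_congr h4, lintegral_const_mul]
    · rfl
    · have h5 := (h2.smo _ (h2.adj v hv)).continuous_apply ω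
      exact (h5.enorm.measurable.pow_const 2)
  · have h6 := continuous_al_uncurry hF hd (h2.smo _ (h2.adj S hS)).toFd
      (h2.smo _ (h2.adj S hS)).acont
    have h7 := (h2.smo _ (h2.adj v hv)).continuous_apply ω
    have h8 : Continuous fun p : H × G =>
        al κ V p.1 (fun x => adjoint (S x)) p.2 (adjoint (v p.2) ω) :=
      h6.clm_apply (h7.comp continuous_snd)
    exact (h8.enorm.measurable.pow_const 2).aemeasurable

theorem meas_nsq (hF : Frm ρ V ω) (hd : DenseRange κ) (h2 : Two ι κ ρ V ω μ ν c 𝔪)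
    {v S : G → K →L[ℂ] K} (hv : v ∈ 𝔪) (hS : S ∈ 𝔪) :
    Measurable fun h => nsq ω μ (fun x => v x * al κ V h S x) := by
  have h6 := continuous_al_uncurry hF hd (h2.smo _ hS).toFd (h2.smo _ hS).acont
  have h7 : Continuous fun p : H × G => v p.2 := (h2.smo v hv).continuous.comp continuous_snd
  have h8 : Continuous fun p : H × G => v p.2 (al κ V p.1 S p.2 ω) :=
    h7.clm_apply (h6.clm_apply continuous_const)
  have h9 : Measurable fun p : H × G => ‖v p.2 (al κ V p.1 S p.2 ω)‖ₑ ^ 2 :=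
    h8.enorm.measurable.pow_const 2
  exact h9.lintegral_prod_right'

theorem lint_fin (hF : Frm ρ V ω) (hd : DenseRange κ) (h2 : Two ι κ ρ V ω μ ν c 𝔪)
    (hc : c ≠ ⊤) {v S w : G → K →L[ℂ] K} (hv : v ∈ 𝔪) (hS : S ∈ 𝔪) (hw : w ∈ 𝔪) (ζ : K)
    {η : G → K} (hη : MemLp η 2 μ) :
    ∫⁻ h, ∫⁻ s, ‖⟪v s (al κ V h S s (al κ V h w 1 ζ)), η s⟫_ℂ‖ₑ ∂μ ∂ν < ⊤ := by
  obtain ⟨E, hE⟩ : ∃ E : ℝ≥0∞, E = (∫⁻ s, ‖η s‖ₑ ^ 2 ∂μ) ^ (1 / 2 : ℝ) := ⟨_, rfl⟩
  have hEt : E < ⊤ := by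
    rw [hE]
    exact ENNReal.rpow_lt_top_of_nonneg (by norm_num) (lintegral_sq_lt_top hη).ne
  have h3 : ∀ h, ∫⁻ s, ‖⟪v s (al κ V h S s (al κ V h w 1 ζ)), η s⟫_ℂ‖ₑ ∂μ ≤
      (nsq ω μ (fun x => v x * al κ V h S x)) ^ (1 / 2 : ℝ) * ‖al κ V h w 1 ζ‖ₑ * E := by
    intro h
    have hp := h2.smo _ (h2.mul v hv _ (h2.al S hS h))
    calc ∫⁻ s, ‖⟪v s (al κ V h S s (al κ V h w 1 ζ)), η s⟫_ℂ‖ₑ ∂μ
        ≤ ∫⁻ s, ‖v s (al κ V h S s (al κ V h w 1 ζ))‖ₑ * ‖η s‖ₑ ∂μ := by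
          refine lintegral_mono fun s => ?_
          rw [← enorm_norm ⟪v s (al κ V h S s (al κ V h w 1 ζ)), η s⟫_ℂ, ← ofReal_norm_eq_enorm,
            ← ofReal_norm_eq_enorm, ← ofReal_norm_eq_enorm,
            ← ENNReal.ofReal_mul (norm_nonneg _), norm_norm]
          exact ENNReal.ofReal_le_ofReal (norm_inner_le_norm _ _)
      _ ≤ (∫⁻ s, ‖v s (al κ V h S s (al κ V h w 1 ζ))‖ₑ ^ 2 ∂μ) ^ (1 / 2 : ℝ) * E := by
          rw [hE]
          refine lcs ?_ hη.1.enorm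
          exact (hp.continuous_apply _).enorm.measurable.aemeasurable
      _ = (nsq ω μ (fun x => v x * al κ V h S x)) ^ (1 / 2 : ℝ) * ‖al κ V h w 1 ζ‖ₑ * E := by
          have h4 := h2.t4 _ (h2.mul v hv _ (h2.al S hS h)) (al κ V h w 1 ζ)
          have h5 : ∫⁻ s, ‖v s (al κ V h S s (al κ V h w 1 ζ))‖ₑ ^ 2 ∂μ =
              nsq ω μ (fun x => v x * al κ V h S x) * ‖al κ V h w 1 ζ‖ₑ ^ 2 := h4
          rw [h5, ENNReal.mul_rpow_of_nonneg _ _ (by norm_num), sqrt_sq]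
  have hmu : Measurable fun h => ‖al κ V h w 1 ζ‖ₑ :=
    ((continuous_al hF hd (h2.smo w hw).acont 1).clm_apply
      continuous_const).enorm.measurable
  have hmn := meas_nsq hF hd h2 hv hS
  calc ∫⁻ h, ∫⁻ s, ‖⟪v s (al κ V h S s (al κ V h w 1 ζ)), η s⟫_ℂ‖ₑ ∂μ ∂ν
      ≤ ∫⁻ h, (nsq ω μ (fun x => v x * al κ V h S x)) ^ (1 / 2 : ℝ) *
          ‖al κ V h w 1 ζ‖ₑ * E ∂ν := lintegral_mono h3
    _ = (∫⁻ h, (nsq ω μ (fun x => v x * al κ V h S x)) ^ (1 / 2 : ℝ) *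
          ‖al κ V h w 1 ζ‖ₑ ∂ν) * E := by
        rw [lintegral_mul_const' _ _ hEt.ne]
    _ ≤ ((∫⁻ h, ((nsq ω μ (fun x => v x * al κ V h S x)) ^ (1 / 2 : ℝ)) ^ 2 ∂ν) ^ (1 / 2 : ℝ) *
          (∫⁻ h, ‖al κ V h w 1 ζ‖ₑ ^ 2 ∂ν) ^ (1 / 2 : ℝ)) * E := by
        gcongr
        exact lcs (hmn.pow_const _).aemeasurable hmu.aemeasurable
    _ < ⊤ := by
        simp only [sqrt_sq']
        rw [lint_nsq hF hd h2 hv hS, h2.ia2 w hw]
        have n1 := nsq_lt_top (h2.smo _ (h2.adj S hS)).l2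
        have n2 := nsq_lt_top (h2.smo _ (h2.adj v hv)).l2
        have n3 := nsq_lt_top (h2.smo _ hw).l2
        refine ENNReal.mul_lt_top (ENNReal.mul_lt_top ?_ ?_) hEt
        · exact ENNReal.rpow_lt_top_of_nonneg (by norm_num)
            (ENNReal.mul_lt_top (ENNReal.mul_lt_top hc.lt_top n1) n2).ne
        · exact ENNReal.rpow_lt_top_of_nonneg (by norm_num)
            (ENNReal.mul_lt_top (ENNReal.mul_lt_top hc.lt_top n3)
              (ENNReal.pow_lt_top enorm_lt_top)).ne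

/-- The coefficient functions multiply the orthogonal complement. -/
theorem ort_ph (hF : Frm ρ V ω) (hd : DenseRange κ) (h2 : Two ι κ ρ V ω μ ν c 𝔪)
    (hc : c ≠ ⊤) (hc0 : c ≠ 0) {S w : G → K →L[ℂ] K} (hS : S ∈ 𝔪) (hw : w ∈ 𝔪)
    {η : G → K} (hη : Ort μ 𝔪 η) {v : G → K →L[ℂ] K} (hv : v ∈ 𝔪) (ζ : K) :
    ∫ s, ph ω μ w S s * ⟪v s ζ, η s⟫_ℂ ∂μ = 0 := by
  obtain ⟨S', hS'⟩ : ∃ S' : G → K →L[ℂ] K, S' = fun x => adjoint (S x) := ⟨_, rfl⟩
  have hS'm : S' ∈ 𝔪 := by rw [hS']; exact h2.adj S hS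
  have hSS : S = fun x => adjoint (S' x) := by
    funext x
    rw [hS', adjoint_adjoint]
  have key : ∀ s, ∫ h, ⟪v s (al κ V h S' s (al κ V h w 1 ζ)), η s⟫_ℂ ∂ν =
      c.toReal * (ph ω μ w S s * ⟪v s ζ, η s⟫_ℂ) := by
    intro s
    have h4 := h2.ia w hw _ (h2.rt S hS s) 1 ζ (adjoint (v s) (η s))
    rw [adjoint_inner_right] at h4
    have e : ∀ h, ⟪al κ V h w 1 ζ, al κ V h (fun x => S (x * s)) 1 (adjoint (v s) (η s))⟫_ℂ =
        ⟪v s (al κ V h S' s (al κ V h w 1 ζ)), η s⟫_ℂ := by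
      intro h
      rw [al_rt, one_mul, hSS, al_adj hF hd (h2.smo S' hS'm).acont, adjoint_inner_right,
        adjoint_inner_right]
    rw [← integral_congr_ae (Eventually.of_forall e)]
    rw [h4, ph]
    ring
  have hfin := lint_fin hF hd h2 hc hv hS'm hw ζ hη.1
  have hm : AEStronglyMeasurable
      (fun p : H × G => ⟪v p.2 (al κ V p.1 S' p.2 (al κ V p.1 w 1 ζ)), η p.2⟫_ℂ) (ν.prod μ) := by
    have h6 := continuous_al_uncurry hF hd (h2.smo _ hS'm).toFd (h2.smo _ hS'm).acont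
    have h7 : Continuous fun p : H × G => v p.2 := (h2.smo v hv).continuous.comp continuous_snd
    have h8 : Continuous fun p : H × G => al κ V p.1 w 1 ζ :=
      ((continuous_al hF hd (h2.smo w hw).acont 1).comp continuous_fst).clm_apply continuous_const
    have h9 : Continuous fun p : H × G => v p.2 (al κ V p.1 S' p.2 (al κ V p.1 w 1 ζ)) :=
      h7.clm_apply (h6.clm_apply h8)
    exact h9.aestronglyMeasurable.inner hη.1.1.comp_snd
  have hint : Integrable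
      (fun p : H × G => ⟪v p.2 (al κ V p.1 S' p.2 (al κ V p.1 w 1 ζ)), η p.2⟫_ℂ) (ν.prod μ) := by
    refine ⟨hm, ?_⟩
    rw [HasFiniteIntegral, lintegral_prod _ hm.enorm]
    exact hfin
  have h10 := integral_integral_swap (f := fun h s =>
    ⟪v s (al κ V h S' s (al κ V h w 1 ζ)), η s⟫_ℂ) hint
  have h11 : ∀ h, ∫ s, ⟪v s (al κ V h S' s (al κ V h w 1 ζ)), η s⟫_ℂ ∂μ = 0 := fun h =>
    hη.2 _ (h2.mul v hv _ (h2.al S' hS'm h)) _
  simp only [h11, integral_zero, key] at h10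
  rw [integral_const_mul] at h10
  have h12 : ((c.toReal : ℝ) : ℂ) ≠ 0 := by
    rw [Ne, Complex.ofReal_eq_zero, ENNReal.toReal_eq_zero_iff, not_or]
    exact ⟨hc0, hc⟩
  exact (mul_eq_zero.1 h10.symm).resolve_left h12

theorem Two.memLp (h2 : Two ι κ ρ V ω μ ν c 𝔪) {b : G → K →L[ℂ] K} (hb : b ∈ 𝔪) (ζ : K) :
    MemLp (fun x => b x ζ) 2 μ := by
  refine memLp_of_lintegral ((h2.smo b hb).continuous_apply ζ).aestronglyMeasurable ?_
  rw [h2.t4 b hb]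
  exact ENNReal.mul_lt_top (nsq_lt_top (h2.smo b hb).l2) (ENNReal.pow_lt_top enorm_lt_top)

theorem Ort.add (h2 : Two ι κ ρ V ω μ ν c 𝔪) {η ξ : G → K} (hη : Ort μ 𝔪 η) (hξ : Ort μ 𝔪 ξ) :
    Ort μ 𝔪 (fun x => η x + ξ x) := by
  refine ⟨hη.1.add hξ.1, fun b hb ζ => ?_⟩
  simp only [inner_add_right]
  rw [integral_add (integrable_inner_of_memLp (h2.memLp hb ζ) hη.1)
    (integrable_inner_of_memLp (h2.memLp hb ζ) hξ.1), hη.2 b hb, hξ.2 b hb, add_zero]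

theorem Ort.smul {η : G → K} (z : ℂ) (hη : Ort μ 𝔪 η) : Ort μ 𝔪 (fun x => z • η x) := by
  refine ⟨hη.1.const_smul z, fun b hb ζ => ?_⟩
  simp only [inner_smul_right]
  rw [integral_const_mul, hη.2 b hb, mul_zero]

theorem Ort.congr {η ξ : G → K} (hη : Ort μ 𝔪 η) (h : ∀ x, η x = ξ x) : Ort μ 𝔪 ξ := by
  have : η = ξ := funext h
  rwa [← this]

theorem ph_eq (h2 : Two ι κ ρ V ω μ ν c 𝔪) {w S : G → K →L[ℂ] K} (hw : w ∈ 𝔪) (hS : S ∈ 𝔪)
    (s : G) : ph ω μ w S s = ⟪vec (h2.smo w hw), vec (smo_rt (h2.smo S hS) s)⟫_ℂ :=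
  ip_eq_inner (h2.smo w hw) (smo_rt (h2.smo S hS) s)

theorem continuous_ph (hF : Frm ρ V ω) (h2 : Two ι κ ρ V ω μ ν c 𝔪) {w S : G → K →L[ℂ] K}
    (hw : w ∈ 𝔪) (hS : S ∈ 𝔪) : Continuous (ph ω μ w S) := by
  have e : ph ω μ w S = fun s => ⟪vec (h2.smo w hw), vec (smo_rt (h2.smo S hS) s)⟫_ℂ :=
    funext fun s => ph_eq h2 hw hS s
  rw [e]
  exact continuous_const.inner (continuous_vec_rt hF (h2.smo S hS))

theorem norm_ph_le (h2 : Two ι κ ρ V ω μ ν c 𝔪) {w S : G → K →L[ℂ] K} (hw : w ∈ 𝔪) (hS : S ∈ 𝔪)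
    (s : G) : ‖ph ω μ w S s‖ ≤ ‖vec (h2.smo w hw)‖ * ‖vec (h2.smo S hS)‖ := by
  rw [ph_eq h2 hw hS, ← norm_vec_rt (h2.smo S hS) s]
  exact norm_inner_le_norm _ _

theorem tendsto_ph (h2 : Two ι κ ρ V ω μ ν c 𝔪) {w S : G → K →L[ℂ] K} (hw : w ∈ 𝔪)
    (hS : S ∈ 𝔪) : Tendsto (ph ω μ w S) (cocompact G) (𝓝 0) :=
  tendsto_coef (h2.smo w hw).l2 (h2.smo S hS).l2

theorem conj_ph (hF : Frm ρ V ω) (h2 : Two ι κ ρ V ω μ ν c 𝔪) {w S : G → K →L[ℂ] K}
    (hw : w ∈ 𝔪) (hS : S ∈ 𝔪) (s : G) : conj (ph ω μ w S s) =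
      ph ω μ (fun x => adjoint (w x)) (fun x => adjoint (S x)) s := by
  have h3 := ip_adj hF.reg (smo_rt (h2.smo S hS) s).toFd (h2.smo w hw).toFd
    (smo_rt (h2.smo S hS) s).l2 (h2.smo w hw).l2
  unfold ph
  rw [ip_conj_symm]
  exact h3.symm

theorem ort_ph' (hF : Frm ρ V ω) (hd : DenseRange κ) (h2 : Two ι κ ρ V ω μ ν c 𝔪)
    (hc : c ≠ ⊤) (hc0 : c ≠ 0) {S w : G → K →L[ℂ] K} (hw : w ∈ 𝔪) (hS : S ∈ 𝔪)
    {η : G → K} (hη : Ort μ 𝔪 η) : Ort μ 𝔪 (fun s => ph ω μ w S s • η s) := by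
  refine ⟨?_, fun b hb ζ => ?_⟩
  · refine MemLp.of_le_mul (c := ‖vec (h2.smo w hw)‖ * ‖vec (h2.smo S hS)‖) hη.1
      ((continuous_ph hF h2 hw hS).aestronglyMeasurable.smul hη.1.1)
      (Eventually.of_forall fun s => ?_)
    rw [norm_smul]
    exact mul_le_mul_of_nonneg_right (norm_ph_le h2 hw hS s) (norm_nonneg _)
  · simp only [inner_smul_right]
    exact ort_ph hF hd h2 hc hc0 hS hw hη hb ζ

/-- The real functions vanishing at infinity which preserve the orthogonal complement. -/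
def MulS (μ : Measure G) (𝔪 : Set (G → K →L[ℂ] K)) : Set (G → ℝ) :=
  {f | Continuous f ∧ Tendsto f (cocompact G) (𝓝 0) ∧
    ∀ η, Ort μ 𝔪 η → Ort μ 𝔪 (fun s => ((f s : ℝ) : ℂ) • η s)}

theorem re_mem (hF : Frm ρ V ω) (hd : DenseRange κ) (h2 : Two ι κ ρ V ω μ ν c 𝔪)
    (hc : c ≠ ⊤) (hc0 : c ≠ 0) {S w : G → K →L[ℂ] K} (hw : w ∈ 𝔪) (hS : S ∈ 𝔪) :
    (fun s => (ph ω μ w S s).re) ∈ MulS μ 𝔪 := by
  refine ⟨Complex.continuous_re.comp (continuous_ph hF h2 hw hS), ?_, fun η hη => ?_⟩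
  · have h3 := (Complex.continuous_re.tendsto 0).comp (tendsto_ph h2 hw hS)
    rwa [Complex.zero_re] at h3
  · have h3 := ((ort_ph' hF hd h2 hc hc0 hw hS hη).add h2
      (ort_ph' hF hd h2 hc hc0 (h2.adj w hw) (h2.adj S hS) hη)).smul (1 / 2)
    refine h3.congr fun s => ?_
    rw [← conj_ph hF h2 hw hS, ← add_smul, smul_smul, Complex.add_conj]
    congr 1
    push_cast
    ring

theorem im_mem (hF : Frm ρ V ω) (hd : DenseRange κ) (h2 : Two ι κ ρ V ω μ ν c 𝔪)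
    (hc : c ≠ ⊤) (hc0 : c ≠ 0) {S w : G → K →L[ℂ] K} (hw : w ∈ 𝔪) (hS : S ∈ 𝔪) :
    (fun s => (ph ω μ w S s).im) ∈ MulS μ 𝔪 := by
  refine ⟨Complex.continuous_im.comp (continuous_ph hF h2 hw hS), ?_, fun η hη => ?_⟩
  · have h3 := (Complex.continuous_im.tendsto 0).comp (tendsto_ph h2 hw hS)
    rwa [Complex.zero_im] at h3
  · have h3 := ((ort_ph' hF hd h2 hc hc0 hw hS hη).add h2
      ((ort_ph' hF hd h2 hc hc0 (h2.adj w hw) (h2.adj S hS) hη).smul (-1))).smul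
        (1 / (2 * Complex.I))
    refine h3.congr fun s => ?_
    rw [← conj_ph hF h2 hw hS, smul_smul, ← add_smul, smul_smul, neg_one_mul, ← sub_eq_add_neg,
      Complex.sub_conj]
    congr 1
    have hI : Complex.I ≠ 0 := Complex.I_ne_zero
    push_cast
    field_simp

theorem MulS.zero : (fun _ => 0) ∈ MulS (K := K) μ 𝔪 := by
  refine ⟨continuous_const, tendsto_const_nhds, fun η hη => ?_⟩
  refine (hη.smul 0).congr fun s => ?_
  simp

theorem MulS.add (h2 : Two ι κ ρ V ω μ ν c 𝔪) {f g : G → ℝ} (hf : f ∈ MulS μ 𝔪)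
    (hg : g ∈ MulS μ 𝔪) : (fun x => f x + g x) ∈ MulS μ 𝔪 := by
  refine ⟨hf.1.add hg.1, ?_, fun η hη => ?_⟩
  · simpa using hf.2.1.add hg.2.1
  · refine ((hf.2.2 η hη).add h2 (hg.2.2 η hη)).congr fun s => ?_
    rw [← add_smul, Complex.ofReal_add]

theorem MulS.mul {f g : G → ℝ} (hf : f ∈ MulS μ 𝔪)
    (hg : g ∈ MulS μ 𝔪) : (fun x => f x * g x) ∈ MulS μ 𝔪 := by
  refine ⟨hf.1.mul hg.1, ?_, fun η hη => ?_⟩
  · simpa using hf.2.1.mul hg.2.1
  · refine (hf.2.2 _ (hg.2.2 η hη)).congr fun s => ?_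
    rw [smul_smul, Complex.ofReal_mul]

theorem MulS.smul (r : ℝ) {f : G → ℝ} (hf : f ∈ MulS μ 𝔪) : (fun x => r * f x) ∈ MulS μ 𝔪 := by
  refine ⟨continuous_const.mul hf.1, ?_, fun η hη => ?_⟩
  · simpa using hf.2.1.const_mul r
  · refine ((hf.2.2 _ hη).smul (r : ℂ)).congr fun s => ?_
    rw [smul_smul, Complex.ofReal_mul]

omit [LocallyCompactSpace G] [T2Space G] [μ.IsMulRightInvariant] in
/-- A field is determined by its vector. -/
theorem eq_of_vec (hF : Frm ρ V ω) {a b : G → K →L[ℂ] K} (ha : Fd ι ρ a) (hb : Fd ι ρ b)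
    (h : ∀ᵐ x ∂μ, a x ω = b x ω) : ∀ x, a x = b x := by
  have h1 : (fun x => a x ω) = fun x => b x ω :=
    Continuous.ae_eq_iff_eq μ (ha.continuous_apply ω) (hb.continuous_apply ω) |>.1 h
  intro x
  refine hF.reg.ext_op fun g => ?_
  have h2 := congrFun h1 (ι g⁻¹ * x)
  rw [ha.equiv, hb.equiv, inv_inv] at h2
  have h3 := congrArg (ρ g) h2
  have e : ∀ T : K →L[ℂ] K, ρ g ((ρ g⁻¹ * T * ρ g) ω) = T (ρ g ω) := fun T => by
    rw [mul_ap, mul_ap, hF.reg.apply_inv]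
  rwa [e, e] at h3

theorem sep (hF : Frm ρ V ω) (h2 : Two ι κ ρ V ω μ ν c 𝔪)
    (hN : ∀ z : G, (∀ S ∈ 𝔪, ∀ t, S (t * z) = S t) → z = 1) {x y : G}
    (h : ∀ w ∈ 𝔪, ∀ S ∈ 𝔪, ph ω μ w S x = ph ω μ w S y) : x = y := by
  have h1 : x⁻¹ * y = 1 := by
    refine hN _ fun S hS t => ?_
    have hx := h _ (h2.rt S hS x) S hS
    have hy := h _ (h2.rt S hS y) S hS
    have k1 := ph_eq h2 (h2.rt S hS x) hS x
    have k2 := ph_eq h2 (h2.rt S hS x) hS y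
    have k3 := ph_eq h2 (h2.rt S hS y) hS x
    have k4 := ph_eq h2 (h2.rt S hS y) hS y
    rw [k1, k2] at hx
    rw [k3, k4] at hy
    have h3 : vec (smo_rt (h2.smo S hS) x) = vec (smo_rt (h2.smo S hS) y) := by
      rw [← sub_eq_zero, ← inner_self_eq_zero (𝕜 := ℂ), inner_sub_left, inner_sub_right,
        inner_sub_right]
      rw [hx, hy]
      ring
    have h4 : ∀ᵐ u ∂μ, S (u * x) ω = S (u * y) ω := by
      have h5 := (MemLp.toLp_eq_toLp_iff _ _).1 h3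
      exact h5
    have h6 := eq_of_vec hF ((h2.smo S hS).toFd.rt x) ((h2.smo S hS).toFd.rt y) h4 (t * x⁻¹)
    simp only [inv_mul_cancel_right] at h6
    rw [← mul_assoc]
    exact h6.symm
  rw [inv_mul_eq_one] at h1
  exact h1

/-- Continuous functions with compact support do not see `⟪v s ζ, η s⟫`. -/
theorem int_cc (hF : Frm ρ V ω) (hd : DenseRange κ) (h2 : Two ι κ ρ V ω μ ν c 𝔪)
    (hc : c ≠ ⊤) (hc0 : c ≠ 0) (hne : ∃ b ∈ 𝔪, b ≠ 0)
    (hN : ∀ z : G, (∀ S ∈ 𝔪, ∀ t, S (t * z) = S t) → z = 1)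
    {η : G → K} (hη : Ort μ 𝔪 η) {v : G → K →L[ℂ] K} (hv : v ∈ 𝔪) (ζ : K) {g : G → ℝ}
    (hg : Continuous g) (hgc : HasCompactSupport g) :
    ∫ s, (g s : ℂ) * ⟪v s ζ, η s⟫_ℂ ∂μ = 0 := by
  have hFi : Integrable (fun s => ⟪v s ζ, η s⟫_ℂ) μ :=
    integrable_inner_of_memLp (h2.memLp hv ζ) hη.1
  obtain ⟨b, hb, hb0⟩ := hne
  have hb0' : vec (h2.smo b hb) ≠ 0 := by
    intro h0
    apply hb0
    have h4 : ∀ᵐ u ∂μ, b u ω = (fun _ => (0 : K →L[ℂ] K)) u ω := by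
      have h5 := (Lp.eq_zero_iff_ae_eq_zero).1 h0
      filter_upwards [h5, (h2.smo b hb).l2.coeFn_toLp] with u hu1 hu2
      have h6 : b u ω = vec (h2.smo b hb) u := hu2.symm
      rw [h6, hu1]
      rfl
    funext x
    exact eq_of_vec hF (h2.smo b hb).toFd Fd.zero h4 x
  have hsw := fun (ε : ℝ) (hε : 0 < ε) => H734.swC0 (MulS μ 𝔪) (fun f hf => hf.1)
    (fun f hf => hf.2.1) MulS.zero (fun f hf g hg => MulS.add h2 hf hg)
    (fun f hf g hg => MulS.mul hf hg) (fun r f hf => MulS.smul r hf)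
    (fun x y hxy => by
      by_contra hcon
      push Not at hcon
      refine hxy (sep hF h2 hN fun w hw S hS => ?_)
      refine Complex.ext ?_ ?_
      · exact hcon _ (re_mem hF hd h2 hc hc0 hw hS)
      · exact hcon _ (im_mem hF hd h2 hc hc0 hw hS))
    (fun x => by
      refine ⟨_, re_mem hF hd h2 hc hc0 (h2.rt b hb x) hb, ?_⟩
      have k1 := ph_eq h2 (h2.rt b hb x) hb x
      have k2 : ph ω μ (fun u => b (u * x)) b x =
          ((‖vec (h2.smo b hb)‖ ^ 2 : ℝ) : ℂ) := by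
        rw [k1]
        have k3 := inner_self_eq_norm_sq_to_K (𝕜 := ℂ) (vec (smo_rt (h2.smo b hb) x))
        rw [norm_vec_rt (h2.smo b hb) x] at k3
        push_cast
        exact k3
      rw [k2, Complex.ofReal_re]
      exact pow_ne_zero 2 (norm_ne_zero_iff.2 hb0'))
    g hg (hgc.is_zero_at_infty) hε
  rw [← norm_eq_zero]
  refine le_antisymm (le_of_forall_pos_le_add fun ε hε => ?_) (norm_nonneg _)
  obtain ⟨M, hM⟩ : ∃ M : ℝ, M = ∫ s, ‖⟪v s ζ, η s⟫_ℂ‖ ∂μ := ⟨_, rfl⟩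
  have hM0 : 0 ≤ M := by rw [hM]; exact integral_nonneg fun s => norm_nonneg _
  obtain ⟨f, hf, hfg⟩ := hsw (ε / (M + 1)) (by positivity)
  have hf0 : ∫ s, (f s : ℂ) * ⟪v s ζ, η s⟫_ℂ ∂μ = 0 := by
    have h7 := (hf.2.2 η hη).2 v hv ζ
    simpa only [inner_smul_right] using h7
  have hbd : ∀ u : G → ℝ, Continuous u → Tendsto u (cocompact G) (𝓝 0) →
      Integrable (fun s => (u s : ℂ) * ⟪v s ζ, η s⟫_ℂ) μ := by
    intro u hu hu0
    obtain ⟨C, hC⟩ : ∃ C : ℝ, ∀ x, ‖u x‖ ≤ C := by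
      have h1 : ∀ᶠ x in cocompact G, ‖u x‖ ≤ 1 := by
        have h2 := hu0.norm
        rw [norm_zero] at h2
        exact h2.eventually (ge_mem_nhds one_pos)
      obtain ⟨K', hK, hKu⟩ := mem_cocompact.mp h1
      obtain ⟨C, hC⟩ := hK.exists_bound_of_continuousOn hu.continuousOn
      refine ⟨max C 1, fun x => ?_⟩
      by_cases hx : x ∈ K'
      · exact (hC x hx).trans (le_max_left _ _)
      · exact (hKu hx : ‖u x‖ ≤ 1).trans (le_max_right _ _)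
    refine hFi.bdd_mul (c := C) (Complex.continuous_ofReal.comp hu).aestronglyMeasurable
      (Eventually.of_forall fun x => ?_)
    simp only [Complex.norm_real]
    exact hC x
  have e1 : ∫ s, (g s : ℂ) * ⟪v s ζ, η s⟫_ℂ ∂μ =
      ∫ s, ((g s : ℂ) * ⟪v s ζ, η s⟫_ℂ - (f s : ℂ) * ⟪v s ζ, η s⟫_ℂ) ∂μ := by
    rw [integral_sub (hbd g hg hgc.is_zero_at_infty) (hbd f hf.1 hf.2.1), hf0, sub_zero]
  rw [e1, zero_add]
  refine (norm_integral_le_integral_norm _).trans ?_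
  calc ∫ s, ‖(g s : ℂ) * ⟪v s ζ, η s⟫_ℂ - (f s : ℂ) * ⟪v s ζ, η s⟫_ℂ‖ ∂μ
      ≤ ∫ s, ε / (M + 1) * ‖⟪v s ζ, η s⟫_ℂ‖ ∂μ := by
        refine integral_mono_of_nonneg (Eventually.of_forall fun s => norm_nonneg _)
          (hFi.norm.const_mul _) (Eventually.of_forall fun s => ?_)
        simp only
        rw [← sub_mul, norm_mul, ← Complex.ofReal_sub, Complex.norm_real, Real.norm_eq_abs,
          abs_sub_comm]
        exact mul_le_mul_of_nonneg_right (hfg s).le (norm_nonneg _)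
    _ = ε / (M + 1) * M := by rw [integral_const_mul, ← hM]
    _ ≤ ε / (M + 1) * (M + 1) := by gcongr; linarith
    _ = ε := by field_simp

/-- The functions `⟪v s ζ, η s⟫` vanish. -/
theorem ae_zero (hF : Frm ρ V ω) (hd : DenseRange κ) (h2 : Two ι κ ρ V ω μ ν c 𝔪)
    (hc : c ≠ ⊤) (hc0 : c ≠ 0) (hne : ∃ b ∈ 𝔪, b ≠ 0)
    (hN : ∀ z : G, (∀ S ∈ 𝔪, ∀ t, S (t * z) = S t) → z = 1)
    {η : G → K} (hη : Ort μ 𝔪 η) {v : G → K →L[ℂ] K} (hv : v ∈ 𝔪) (ζ : K) :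
    ∀ᵐ s ∂μ, ⟪v s ζ, η s⟫_ℂ = 0 := by
  obtain ⟨F, hF'⟩ : ∃ F : G → ℂ, F = fun s => ⟪v s ζ, η s⟫_ℂ := ⟨_, rfl⟩
  obtain ⟨C, hC0, hC⟩ := (h2.smo v hv).toFd.exists_bdd
  have hm : AEStronglyMeasurable F μ := by
    rw [hF']
    exact ((h2.smo v hv).continuous_apply ζ).aestronglyMeasurable.inner hη.1.1
  have hF2 : MemLp F 2 μ := by
    refine MemLp.of_le_mul (c := C * ‖ζ‖) hη.1 hm (Eventually.of_forall fun s => ?_)
    rw [hF']
    refine (norm_inner_le_norm _ _).trans ?_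
    gcongr
    exact ((v s).le_opNorm ζ).trans (by gcongr; exact hC s)
  have hcc : ∀ g : G → ℂ, Continuous g → HasCompactSupport g → ∫ s, conj (g s) * F s ∂μ = 0 := by
    intro g hg hgc
    have i1 := int_cc hF hd h2 hc hc0 hne hN hη hv ζ (g := fun s => (g s).re)
      (Complex.continuous_re.comp hg) (hgc.comp_left Complex.zero_re)
    have i2 := int_cc hF hd h2 hc hc0 hne hN hη hv ζ (g := fun s => (g s).im)
      (Complex.continuous_im.comp hg) (hgc.comp_left Complex.zero_im)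
    have e : ∀ s, conj (g s) * F s = ((g s).re : ℂ) * ⟪v s ζ, η s⟫_ℂ -
        Complex.I * (((g s).im : ℂ) * ⟪v s ζ, η s⟫_ℂ) := by
      intro s
      rw [hF', ← mul_assoc, ← sub_mul]
      congr 1
      apply Complex.ext <;> simp
    have hint : ∀ u : G → ℝ, Continuous u → HasCompactSupport u →
        Integrable (fun s => (u s : ℂ) * ⟪v s ζ, η s⟫_ℂ) μ := by
      intro u hu huc
      obtain ⟨D, hD⟩ := huc.exists_bound_of_continuous hu
      refine (integrable_inner_of_memLp (h2.memLp hv ζ) hη.1).bdd_mul (c := D)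
        (Complex.continuous_ofReal.comp hu).aestronglyMeasurable
        (Eventually.of_forall fun x => ?_)
      simp only [Complex.norm_real]
      exact hD x
    have j1 : Integrable (fun s => ((g s).re : ℂ) * ⟪v s ζ, η s⟫_ℂ) μ :=
      hint (fun s => (g s).re) (Complex.continuous_re.comp hg) (hgc.comp_left Complex.zero_re)
    have j2 : Integrable (fun s => ((g s).im : ℂ) * ⟪v s ζ, η s⟫_ℂ) μ :=
      hint (fun s => (g s).im) (Complex.continuous_im.comp hg) (hgc.comp_left Complex.zero_im)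
    rw [integral_congr_ae (Eventually.of_forall e), integral_sub j1 (j2.const_mul Complex.I), i1,
      integral_const_mul, i2, mul_zero, sub_zero]
  have hz : hF2.toLp F = 0 := by
    rw [← norm_eq_zero]
    refine le_antisymm (le_of_forall_pos_le_add fun ε hε => ?_) (norm_nonneg _)
    rw [zero_add]
    obtain ⟨g, h1, h3, h4, h5⟩ := hF2.exists_hasCompactSupport_eLpNorm_sub_le
      (by norm_num) (ε := ENNReal.ofReal ε) (by
        simp only [ne_eq, ENNReal.ofReal_eq_zero, not_le]; exact hε)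
    have h6 : ‖hF2.toLp F - h5.toLp g‖ ≤ ε := by
      rw [← MemLp.toLp_sub, Lp.norm_toLp]
      exact ENNReal.toReal_le_of_le_ofReal hε.le h3
    have h7 : ⟪h5.toLp g, hF2.toLp F⟫_ℂ = 0 := by
      rw [← integral_inner_toLp h5 hF2, ← hcc g h4 h1]
      refine integral_congr_ae (Eventually.of_forall fun s => ?_)
      simp [RCLike.inner_apply, mul_comm]
    by_contra hcon
    push Not at hcon
    have h8 : ‖hF2.toLp F‖ * ‖hF2.toLp F‖ ≤ ε * ‖hF2.toLp F‖ := by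
      have h9 : ⟪hF2.toLp F, hF2.toLp F⟫_ℂ = ⟪hF2.toLp F - h5.toLp g, hF2.toLp F⟫_ℂ := by
        rw [inner_sub_left, h7, sub_zero]
      have h10 : ‖⟪hF2.toLp F, hF2.toLp F⟫_ℂ‖ = ‖hF2.toLp F‖ * ‖hF2.toLp F‖ := by
        rw [inner_self_eq_norm_sq_to_K, ← sq]
        simp
      rw [← h10, h9]
      exact (norm_inner_le_norm _ _).trans (by gcongr)
    have h11 : 0 < ‖hF2.toLp F‖ := hε.trans hcon
    have h12 := le_of_mul_le_mul_right h8 h11
    linarith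
  have h13 := (Lp.eq_zero_iff_ae_eq_zero).1 hz
  filter_upwards [h13, hF2.coeFn_toLp] with s h14 h15
  have h16 : F s = 0 := by rw [← h15, h14]; rfl
  rw [← h16, hF']

/-- **Q-GAL**: the vectors `x ↦ b x ζ` are total in `L²(G; K)`. -/
theorem gal (hF : Frm ρ V ω) (hd : DenseRange κ) (h2 : Two ι κ ρ V ω μ ν c 𝔪)
    (hc : c ≠ ⊤) (hc0 : c ≠ 0) (hne : ∃ b ∈ 𝔪, b ≠ 0)
    (hN : ∀ z : G, (∀ S ∈ 𝔪, ∀ t, S (t * z) = S t) → z = 1)
    {η : G → K} (hη : Ort μ 𝔪 η) : η =ᵐ[μ] 0 := by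
  obtain ⟨b, hb, hb0⟩ := hne
  have hall : ∀ᵐ s ∂μ, ∀ (k : ℕ) (γ : Γ),
      ⟪b (s * TopologicalSpace.denseSeq G k) (ρ γ ω), η s⟫_ℂ = 0 := by
    rw [ae_all_iff]
    intro k
    rw [ae_all_iff]
    intro γ
    exact ae_zero hF hd h2 hc hc0 ⟨b, hb, hb0⟩ hN hη (h2.rt b hb _) (ρ γ ω)
  filter_upwards [hall] with s hs
  have h3 : ∀ k, adjoint (b (s * TopologicalSpace.denseSeq G k)) (η s) = 0 := by
    intro k
    refine hF.reg.total _ fun g => ?_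
    rw [adjoint_inner_right]
    exact hs k g
  have hbc := (h2.smo b hb).continuous
  have h4 : ∀ y, adjoint (b y) (η s) = 0 := by
    have hcl : IsClosed {t : G | adjoint (b (s * t)) (η s) = 0} := by
      refine isClosed_eq ?_ continuous_const
      have h5 : Continuous fun t : G => adjoint (b (s * t)) :=
        (LinearIsometryEquiv.continuous _).comp (hbc.comp (continuous_const_mul s))
      exact h5.clm_apply continuous_const
    have hun : {t : G | adjoint (b (s * t)) (η s) = 0} = univ := by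
      refine hcl.closure_eq ▸ ?_
      refine (((TopologicalSpace.denseRange_denseSeq G).mono ?_).closure_eq)
      rintro _ ⟨k, rfl⟩
      exact h3 k
    intro y
    have h6 : s⁻¹ * y ∈ {t : G | adjoint (b (s * t)) (η s) = 0} := by rw [hun]; trivial
    have h7 : adjoint (b (s * (s⁻¹ * y))) (η s) = 0 := h6
    rwa [mul_inv_cancel_left] at h7
  have h8 := h2.t4 _ (h2.adj b hb) (η s)
  simp only [h4, enorm_zero, ne_eq, OfNat.ofNat_ne_zero, not_false_eq_true, zero_pow,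
    lintegral_zero] at h8
  rcases mul_eq_zero.1 h8.symm with h9 | h9
  · exfalso
    apply hb0
    have h10 : nsq ω μ b = 0 := by
      rw [← h9]
      exact (nsq_adj hF.reg hbc (h2.smo b hb).equiv).symm
    have h11 : ∀ᵐ x ∂μ, b x ω = (fun _ => (0 : K →L[ℂ] K)) x ω := by
      have h12 := (lintegral_eq_zero_iff (by
        exact ((h2.smo b hb).continuous_apply ω).enorm.measurable.pow_const 2)).1 h10
      filter_upwards [h12] with x hx
      simpa using hx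
    funext x
    exact eq_of_vec hF (h2.smo b hb).toFd Fd.zero h11 x
  · simpa using h9

end two

end Vale.Agent.P092.QT.H448.Gal
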